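import Vale.Agent.P032.H684.Side
import Vale.Agent.P032.H380.Iso

/-!
# P032: five-coloured points with all five diagonals broken are locally tame

`Full5 T z c` : `T z = {c 0, .., c 4}` and all pairs `{c i, c (i + 2)}` are broken at `z`.
Nothing is assumed on the circle `S(z)` (it may carry points with four or more colours).

* `Full5.sided` : at every `V` of `S(z)` every colour of `z` is absent outside or absent inside `S(z)`.
* `Full5.sd` : side data at every exact arc.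
* `Full5.rays` : the nappes orthogonal to an exact direction `{c i, c (i + 2)}`: one is a ray of
  `c (i + 1)`, the other one has colours `c (i + 3)`, `c (i + 4)` only.
* `Full5.iso` : near `z` no other point has `c i` and `c (i + 2)` in `Pal`; hence `Full5.card`: at
  most two colours.
-/

open Set Filter Topology Metric

noncomputable section

namespace Vale.Agent.P032.Six

/-- a pair of colours of `z`, both absent on one side of `S(z)` at every point, and broken at `z`: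
near `z` no other point has both colours -/
theorem Irr.iso_of_sided {k : ℕ} {U : Fin k → Set ℂ} {T : ℂ → Set (Fin k)} (h : Irr U T)
    {z q : ℂ} {a b : Fin k} (ha : a ∈ T z) (hb : b ∈ T z) (hq : dist q z = 1) (hT : T q = {a, b})
    (sa : ∀ V, dist V z = 1 → OutF U z V a ∨ InF U z V a)
    (sb : ∀ V, dist V z = 1 → OutF U z V b ∨ InF U z V b) :
    ∀ᶠ x in 𝓝 z, x ≠ z → ¬ (a ∈ Pal U x ∧ b ∈ Pal U x) := by
  have hg1 : Arc T z q {a, b} := ⟨hq, h.arc_of_pair ha hb hT⟩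
  obtain ⟨g2, hg2, hne, -⟩ := hg1.exists_off_line (y := q)
  exact h.iso_sd hne.symm hg1 hg2
    (h.sides_of_sided hg1.1 hT.subset (sa q hq) (sb q hq))
    (h.sides_of_sided hg2.1 (hg2.2.self_of_nhdsWithin hg2.1).subset (sa g2 hg2.1) (sb g2 hg2.1))

theorem f5_ne (i : Fin 5) : i + 4 ≠ i + 1 ∧ i ≠ i + 4 ∧ i ≠ i + 1 ∧ i + 4 ≠ i + 2 ∧ i + 4 ≠ i + 3 ∧
    i + 1 ≠ i + 2 ∧ i + 1 ≠ i + 3 ∧ i ≠ i + 2 ∧ i ≠ i + 3 := by
  have h : ∀ i : Fin 5, i + 4 ≠ i + 1 ∧ i ≠ i + 4 ∧ i ≠ i + 1 ∧ i + 4 ≠ i + 2 ∧ i + 4 ≠ i + 3 ∧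
    i + 1 ≠ i + 2 ∧ i + 1 ≠ i + 3 ∧ i ≠ i + 2 ∧ i ≠ i + 3 := by decide
  exact h i

theorem f5_eq (i : Fin 5) : i + 3 + 2 = i ∧ i + 4 + 2 = i + 1 ∧ i + 4 + 1 = i := by
  have h : ∀ i : Fin 5, i + 3 + 2 = i ∧ i + 4 + 2 = i + 1 ∧ i + 4 + 1 = i := by decide
  exact h i

/-- five-coloured point with all five diagonals broken -/
structure Full5 (T : ℂ → Set (Fin 6)) (z : ℂ) (c : Fin 5 → Fin 6) : Prop where
  inj : Function.Injective c
  pal : T z = range c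
  br : ∀ i, ∃ q, dist q z = 1 ∧ T q = {c i, c (i + 2)}

namespace Full5

variable {U : Fin 6 → Set ℂ} {T : ℂ → Set (Fin 6)} {z : ℂ} {c : Fin 5 → Fin 6}

theorem mem (F : Full5 T z c) (i : Fin 5) : c i ∈ T z := by rw [F.pal]; exact mem_range_self i

theorem isoC (F : Full5 T z c) (i : Fin 5) :
    IsoC T z (c (i + 4)) (c (i + 1)) (c i) {c (i + 2), c (i + 3)} where
  ab := fun h => (f5_ne i).1 (F.inj h)
  ca := fun h => (f5_ne i).2.1 (F.inj h)
  cb := fun h => (f5_ne i).2.2.1 (F.inj h)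
  pal := by
    rw [F.pal]
    ext x
    constructor
    · rintro ⟨j, rfl⟩
      have hj : ∀ i j : Fin 5, j = i ∨ j = i + 1 ∨ j = i + 2 ∨ j = i + 3 ∨ j = i + 4 := by decide
      rcases hj i j with h | h | h | h | h <;> subst h <;> simp
    · rintro ((rfl | rfl) | (rfl | (rfl | rfl))) <;> exact mem_range_self _
  aY := by
    rintro (h | h)
    · exact (f5_ne i).2.2.2.1 (F.inj h)
    · exact (f5_ne i).2.2.2.2.1 (F.inj h)
  bY := by
    rintro (h | h)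
    · exact (f5_ne i).2.2.2.2.2.1 (F.inj h)
    · exact (f5_ne i).2.2.2.2.2.2.1 (F.inj h)
  cY := by
    rintro (h | h)
    · exact (f5_ne i).2.2.2.2.2.2.2.1 (F.inj h)
    · exact (f5_ne i).2.2.2.2.2.2.2.2 (F.inj h)
  ne := ⟨c (i + 2), Or.inl rfl⟩
  br := by
    rintro y (rfl | rfl)
    · exact F.br i
    · obtain ⟨q, hq, hT⟩ := F.br (i + 3)
      rw [(f5_eq i).1, pair_comm] at hT
      exact ⟨q, hq, hT⟩

/-- **rays**: one nappe orthogonal to an exact direction of `{c (i - 1), c (i + 1)}` is of colour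
`c i`, the other one has the two opposite colours only -/
theorem rays (F : Full5 T z c) (h : Irr U T)
    (hmin : ∀ z, 4 ≤ (T z).ncard → ∀ s, s ⊆ T z → s ≠ T z →
      ¬ ∀ᶠ w in 𝓝 z, ∃ i ∈ s, w ∈ U i ∨ (w ∈ XX U ∧ i ∈ Pal U w)) {q : ℂ} {i : Fin 5}
    (hq : dist q z = 1) (hT : T q = {c (i + 4), c (i + 1)}) :
    (Ray (U (c i)) z (Complex.I * (q - z)) ∧
      ∀ᶠ t : ℝ in 𝓝[>] 0, T (z + t * -(Complex.I * (q - z))) ⊆ {c (i + 2), c (i + 3)}) ∨
    (Ray (U (c i)) z (-(Complex.I * (q - z))) ∧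
      ∀ᶠ t : ℝ in 𝓝[>] 0, T (z + t * (Complex.I * (q - z))) ⊆ {c (i + 2), c (i + 3)}) :=
  (F.isoC i).ray h hmin hq hT

/-- every colour of `z` is absent on one side of `S(z)` at every point of `S(z)` -/
theorem sided (F : Full5 T z c) (h : Irr U T)
    (hmin : ∀ z, 4 ≤ (T z).ncard → ∀ s, s ⊆ T z → s ≠ T z →
      ¬ ∀ᶠ w in 𝓝 z, ∃ i ∈ s, w ∈ U i ∨ (w ∈ XX U ∧ i ∈ Pal U w)) (i : Fin 5) {V : ℂ}
    (hV : dist V z = 1) : OutF U z V (c i) ∨ InF U z V (c i) := by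
  obtain ⟨q, hq, hT⟩ := F.br (i + 4)
  rw [(f5_eq i).2.1] at hT
  exact (F.isoC i).sided h hmin hq hT hV

/-- **side data** at every exact arc of `S(z)` -/
theorem sd (F : Full5 T z c) (h : Irr U T)
    (hmin : ∀ z, 4 ≤ (T z).ncard → ∀ s, s ⊆ T z → s ≠ T z →
      ¬ ∀ᶠ w in 𝓝 z, ∃ i ∈ s, w ∈ U i ∨ (w ∈ XX U ∧ i ∈ Pal U w)) {q : ℂ} {a b : Fin 6}
    (hq : dist q z = 1) (hT : T q = {a, b}) (ha : a ∈ T z) (hb : b ∈ T z) :
    Sd U z q a b ∨ Sd U z q b a := by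
  rw [F.pal] at ha hb
  obtain ⟨i, rfl⟩ := ha
  obtain ⟨j, rfl⟩ := hb
  exact h.sides_of_sided hq hT.subset (F.sided h hmin i hq) (F.sided h hmin j hq)

/-- **isolation**: near `z` no other point has both colours of a diagonal -/
theorem iso (F : Full5 T z c) (h : Irr U T)
    (hmin : ∀ z, 4 ≤ (T z).ncard → ∀ s, s ⊆ T z → s ≠ T z →
      ¬ ∀ᶠ w in 𝓝 z, ∃ i ∈ s, w ∈ U i ∨ (w ∈ XX U ∧ i ∈ Pal U w)) :
    ∀ᶠ x in 𝓝 z, x ≠ z → ∀ i, ¬ (c i ∈ Pal U x ∧ c (i + 2) ∈ Pal U x) := by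
  have h1 : ∀ i, ∀ᶠ x in 𝓝 z, x ≠ z → ¬ (c i ∈ Pal U x ∧ c (i + 2) ∈ Pal U x) := by
    intro i
    obtain ⟨q, hq, hT⟩ := F.br i
    exact h.iso_of_sided (F.mem i) (F.mem (i + 2)) hq hT (fun V hV => F.sided h hmin i hV)
      (fun V hV => F.sided h hmin (i + 2) hV)
  filter_upwards [eventually_all.2 h1] with x hx hne i
  exact hx i hne

/-- near `z` every other point has a palette inside `{c i, c (i + 1)}` for some `i` -/
theorem two (F : Full5 T z c) (h : Irr U T)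
    (hmin : ∀ z, 4 ≤ (T z).ncard → ∀ s, s ⊆ T z → s ≠ T z →
      ¬ ∀ᶠ w in 𝓝 z, ∃ i ∈ s, w ∈ U i ∨ (w ∈ XX U ∧ i ∈ Pal U w)) :
    ∀ᶠ x in 𝓝 z, x ≠ z → ∃ i, T x ⊆ {c i, c (i + 1)} := by
  filter_upwards [F.iso h hmin, h.nhd z] with x h1 h2 hx
  have h3 := h1 hx
  rw [F.pal] at h2
  obtain ⟨m, hm⟩ := h.ne x
  obtain ⟨i, rfl⟩ := h2 hm
  have key : ∀ j, c j ∈ T x → j = i ∨ j = i + 1 ∨ j = i + 4 := by
    intro j hj
    have hf : ∀ i j : Fin 5, j = i ∨ j = i + 1 ∨ j = i + 4 ∨ j = i + 2 ∨ i = j + 2 := by decide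
    rcases hf i j with rfl | rfl | rfl | rfl | rfl
    · exact Or.inl rfl
    · exact Or.inr (Or.inl rfl)
    · exact Or.inr (Or.inr rfl)
    · exact absurd ⟨h.sub x hm, h.sub x hj⟩ (h3 i)
    · exact absurd ⟨h.sub x hj, h.sub x hm⟩ (h3 j)
  by_cases h5 : c (i + 1) ∈ T x
  · refine ⟨i, fun l hl => ?_⟩
    obtain ⟨j, rfl⟩ := h2 hl
    rcases key j hl with rfl | rfl | rfl
    · exact Or.inl rfl
    · exact Or.inr rfl
    · exact absurd ⟨h.sub x hl, by rw [(f5_eq i).2.1]; exact h.sub x h5⟩ (h3 (i + 4))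
  · refine ⟨i + 4, fun l hl => ?_⟩
    obtain ⟨j, rfl⟩ := h2 hl
    rw [(f5_eq i).2.2]
    rcases key j hl with rfl | rfl | rfl
    · exact Or.inr rfl
    · exact absurd hl h5
    · exact Or.inl rfl

/-- near `z` every other point has at most two colours -/
theorem card (F : Full5 T z c) (h : Irr U T)
    (hmin : ∀ z, 4 ≤ (T z).ncard → ∀ s, s ⊆ T z → s ≠ T z →
      ¬ ∀ᶠ w in 𝓝 z, ∃ i ∈ s, w ∈ U i ∨ (w ∈ XX U ∧ i ∈ Pal U w)) :
    ∀ᶠ x in 𝓝 z, x ≠ z → (T x).ncard ≤ 2 := by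
  filter_upwards [F.two h hmin] with x h1 hx
  obtain ⟨i, h2⟩ := h1 hx
  refine (Set.ncard_le_ncard h2 (Set.toFinite _)).trans ?_
  have h3 := Set.ncard_insert_le (c i) ({c (i + 1)} : Set (Fin 6))
  rw [Set.ncard_singleton] at h3
  exact h3

end Full5

end Vale.Agent.P032.Six
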