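import Vale.Agent.P032.S5.H555.Chord
import Vale.Agent.P032.S5.H529.Ray
import Vale.Agent.P032.S5.H80.Anti

/-!
# P032: side data at points with at least four colours (wild frame, circle not assumed clean)

`OutF U z V c` : `c` is absent (in `Pal`) outside `S(z)` near `V`; `InF` : inside.
`Irr.iso_ray` : if `T q = {a, b}`, `T z = {a, b} ∪ ({c} ∪ Y)` and all pairs `{c, y}`, `y ∈ Y`, are
broken at `z`, then one of the two nappes orthogonal to `q - z` is a ray of `U c` and the other one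
has colours of `Y` only.
`Irr.ray_sided`, `Irr.iso_sided` : then `c` is absent on one side of `S(z)` at every `V` of `S(z)`.
`Irr.sides_of_sided` : side data (`Sd`) at an exact arc whose two colours are sided.
`Irr.ray_zone` : zones.
-/

open Set Filter Topology Metric

noncomputable section

namespace Vale.Agent.P032.Six

variable {k : ℕ} {U : Fin k → Set ℂ} {T : ℂ → Set (Fin k)}

/-- near `V` the colour `c` is absent outside `S(z)` -/
def OutF (U : Fin k → Set ℂ) (z V : ℂ) (c : Fin k) : Prop :=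
  ∀ᶠ x in 𝓝 V, 1 < dist x z → c ∉ Pal U x

/-- near `V` the colour `c` is absent inside `S(z)` -/
def InF (U : Fin k → Set ℂ) (z V : ℂ) (c : Fin k) : Prop :=
  ∀ᶠ x in 𝓝 V, dist x z < 1 → c ∉ Pal U x

theorem Mx.ray_out (h : Mx U) {c : Fin k} {z u V : ℂ} (hu : Ray (U c) z u) (hV : dist V z = 1)
    (hs : 0 < ip u (V - z)) : OutF U z V c := h.far hu hV hs

theorem Mx.ray_in (h : Mx U) {c : Fin k} {z u V : ℂ} (hu : Ray (U c) z u) (hV : dist V z = 1)
    (hs : ip u (V - z) < 0) : InF U z V c := h.near hu hV hs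

theorem OutF.nhds {z V : ℂ} {c : Fin k} (h : OutF U z V c) : ∀ᶠ W in 𝓝 V, OutF U z W c :=
  Filter.Eventually.eventually_nhds h

theorem InF.nhds {z V : ℂ} {c : Fin k} (h : InF U z V c) : ∀ᶠ W in 𝓝 V, InF U z W c :=
  Filter.Eventually.eventually_nhds h

namespace Irr

/-- a colour of `T V`, `V ∈ S(z)`, is not absent on both sides -/
theorem not_both_free (h : Irr U T) {z V : ℂ} {c : Fin k} (hc : c ∈ T V) (h1 : OutF U z V c)
    (h2 : InF U z V c) : False := by
  obtain ⟨w, hTw, hw⟩ := ((h.pure V c hc).and_eventually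
    ((Filter.Eventually.and h1 h2).eventually_nhds)).exists
  have hwU : w ∈ U c := h.mem_of_single (by rw [hTw])
  have hall : ∀ᶠ v in 𝓝 w, dist v z = 1 := by
    filter_upwards [hw, (h.mx.isOpen c).mem_nhds hwU] with v hv1 hv2
    rcases lt_trichotomy (dist v z) 1 with h3 | h3 | h3
    · exact absurd (subset_closure hv2) (hv1.2 h3)
    · exact h3
    · exact absurd (subset_closure hv2) (hv1.1 h3)
  obtain ⟨v, hv1, hv2⟩ := (exists_out hall.self_of_nhds hall).1
  linarith

/-- the colours of `T V`, `V ∈ S(z)`, are not all absent outside -/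
theorem not_all_out (h : Irr U T) {z V : ℂ} (hV : dist V z = 1) (hS : ∀ i ∈ T V, OutF U z V i) :
    False :=
  h.side_out hV fun i hi => (hS i hi).mono fun _ hv h1 h2 => hv h1 (subset_closure h2)

/-- the colours of `T V`, `V ∈ S(z)`, are not all absent inside -/
theorem not_all_in (h : Irr U T) {z V : ℂ} (hV : dist V z = 1) (hS : ∀ i ∈ T V, InF U z V i) :
    False :=
  h.side_in hV fun i hi => (hS i hi).mono fun _ hv h1 h2 => hv h1 (subset_closure h2)

/-- **Side data** at a point `V` of `S(z)` with `T V ⊆ {a, b}`, when both colours are absent on one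
side. -/
theorem sides_of_sided (h : Irr U T) {z V : ℂ} {a b : Fin k} (hV : dist V z = 1)
    (hT : T V ⊆ {a, b}) (ha : OutF U z V a ∨ InF U z V a) (hb : OutF U z V b ∨ InF U z V b) :
    Sd U z V a b ∨ Sd U z V b a := by
  rcases ha with ha | ha
  · rcases hb with hb | hb
    · exact (h.not_all_out hV fun i hi => by
        rcases hT hi with rfl | h1
        · exact ha
        · rw [mem_singleton_iff.1 h1]; exact hb).elim
    · exact Or.inl (Filter.Eventually.and ha hb)
  · rcases hb with hb | hb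
    · exact Or.inr (Filter.Eventually.and hb ha)
    · exact (h.not_all_in hV fun i hi => by
        rcases hT hi with rfl | h1
        · exact ha
        · rw [mem_singleton_iff.1 h1]; exact hb).elim

/-- **Zones.** Two rays of one colour `c` are on the same side of the line orthogonal to `V - z`
for every `V ∈ S(z)` with `c ∈ T V`. -/
theorem ray_zone (h : Irr U T) {z u u' V : ℂ} {c : Fin k} (h1 : Ray (U c) z u)
    (h2 : Ray (U c) z u') (hV : dist V z = 1) (hc : c ∈ T V) :
    0 ≤ ip u (V - z) * ip u' (V - z) := by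
  by_contra hcon
  push Not at hcon
  rcases mul_neg_iff.1 hcon with ⟨h3, h4⟩ | ⟨h3, h4⟩
  · exact h.not_both_free hc (h.mx.ray_out h1 hV h3) (h.mx.ray_in h2 hV h4)
  · exact h.not_both_free hc (h.mx.ray_out h2 hV h4) (h.mx.ray_in h1 hV h3)

/-- a ray orthogonal to one direction gives the side at all other directions -/
theorem ray_sided (h : Irr U T) {z q V : ℂ} {c : Fin k} (hq : dist q z = 1) (hV : dist V z = 1)
    (h1 : q ≠ V) (h2 : q + V ≠ 2 * z)
    (hr : Ray (U c) z (Complex.I * (q - z)) ∨ Ray (U c) z (-(Complex.I * (q - z)))) :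
    OutF U z V c ∨ InF U z V c := by
  have hcr := cr_ne_of hq hV h1 h2
  rw [← ip_I] at hcr
  rcases hr with hr | hr
  · rcases lt_or_gt_of_ne hcr with h3 | h3
    · exact Or.inr (h.mx.ray_in hr hV h3)
    · exact Or.inl (h.mx.ray_out hr hV h3)
  · rcases lt_or_gt_of_ne hcr with h3 | h3
    · exact Or.inl (h.mx.ray_out hr hV (by rw [ip_neg]; linarith))
    · exact Or.inr (h.mx.ray_in hr hV (by rw [ip_neg]; linarith))

/-- a two-coloured point of `S(z)` with colours of `z` is interior to an exact arc -/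
theorem arc_of_pair (h : Irr U T) {z q : ℂ} {a b : Fin k} (ha : a ∈ T z) (hb : b ∈ T z)
    (hT : T q = {a, b}) : ∀ᶠ q' in 𝓝[sphere z 1] q, T q' = {a, b} := by
  filter_upwards [mem_nhdsWithin_of_mem_nhds (h.nhd q), self_mem_nhdsWithin] with q' h1 h2
  exact h.pair_of_sub h2 (h.sub z ha) (h.sub z hb) (by rw [← hT]; exact h1)

end Irr

/-- `c` is isolated by the pair `{a, b}` at `z`: the other colours of `z` are `Y`, and all pairs
`{c, y}` are broken -/
structure IsoC (T : ℂ → Set (Fin k)) (z : ℂ) (a b c : Fin k) (Y : Set (Fin k)) : Prop where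
  ab : a ≠ b
  ca : c ≠ a
  cb : c ≠ b
  pal : T z = {a, b} ∪ ({c} ∪ Y)
  aY : a ∉ Y
  bY : b ∉ Y
  cY : c ∉ Y
  ne : Y.Nonempty
  br : ∀ y ∈ Y, ∃ q, dist q z = 1 ∧ T q = {c, y}

namespace IsoC

variable {z : ℂ} {a b c : Fin k} {Y : Set (Fin k)}

theorem four_le (C : IsoC T z a b c Y) : 4 ≤ (T z).ncard := by
  have h1 : ({c} ∪ Y).ncard = 1 + Y.ncard := by
    rw [Set.ncard_union_eq (by rw [Set.disjoint_singleton_left]; exact C.cY) (Set.toFinite _)
      (Set.toFinite _), Set.ncard_singleton]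
  have h2 : Disjoint ({a, b} : Set (Fin k)) ({c} ∪ Y) := by
    rw [Set.disjoint_left]
    rintro i (rfl | rfl)
    · rintro (h3 | h3)
      · exact C.ca (mem_singleton_iff.1 h3).symm
      · exact C.aY h3
    · rintro (h3 | h3)
      · exact C.cb (mem_singleton_iff.1 h3).symm
      · exact C.bY h3
  rw [C.pal, Set.ncard_union_eq h2 (Set.toFinite _) (Set.toFinite _), h1, Set.ncard_pair C.ab]
  have := (Set.ncard_pos (Set.toFinite Y)).2 C.ne
  omega

/-- **Isolated colour**: one nappe orthogonal to an exact direction of the pair is of colour `c`, the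
other one has colours of `Y` only. -/
theorem ray (C : IsoC T z a b c Y) (h : Irr U T)
    (hmin : ∀ z, 4 ≤ (T z).ncard → ∀ s, s ⊆ T z → s ≠ T z →
      ¬ ∀ᶠ w in 𝓝 z, ∃ i ∈ s, w ∈ U i ∨ (w ∈ XX U ∧ i ∈ Pal U w)) {q : ℂ}
    (hq : dist q z = 1) (hT : T q = {a, b}) :
    (Ray (U c) z (Complex.I * (q - z)) ∧
      ∀ᶠ t : ℝ in 𝓝[>] 0, T (z + t * -(Complex.I * (q - z))) ⊆ Y) ∨
    (Ray (U c) z (-(Complex.I * (q - z))) ∧
      ∀ᶠ t : ℝ in 𝓝[>] 0, T (z + t * (Complex.I * (q - z))) ⊆ Y) := by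
  have hcz : c ∈ T z := by rw [C.pal]; exact Or.inr (Or.inl rfl)
  have hX2 : ({c} : Set (Fin k)).ncard ≤ 2 := by rw [Set.ncard_singleton]; norm_num
  rcases h.nappes555 hmin C.four_le C.ab C.pal (X := {c}) (Y := Y)
      (fun h1 => C.ca (mem_singleton_iff.1 h1).symm) (fun h1 => C.cb (mem_singleton_iff.1 h1).symm)
      C.aY C.bY ⟨c, rfl⟩ C.ne (by rw [Set.disjoint_singleton_left]; exact C.cY) hX2
      (fun x hx y hy => by rw [mem_singleton_iff.1 hx]; exact C.br y hy) hq hT with h1 | h1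
  · exact Or.inl ⟨h1.mono fun t h2 => h.mem_of_single h2.1, h1.mono fun t h2 => h2.2⟩
  · exact Or.inr ⟨h1.mono fun t h2 => h.mem_of_single h2.2, h1.mono fun t h2 => h2.1⟩

/-- an isolated colour is absent on one side of `S(z)` at every point of `S(z)` -/
theorem sided (C : IsoC T z a b c Y) (h : Irr U T)
    (hmin : ∀ z, 4 ≤ (T z).ncard → ∀ s, s ⊆ T z → s ≠ T z →
      ¬ ∀ᶠ w in 𝓝 z, ∃ i ∈ s, w ∈ U i ∨ (w ∈ XX U ∧ i ∈ Pal U w)) {q V : ℂ}
    (hq : dist q z = 1) (hT : T q = {a, b}) (hV : dist V z = 1) :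
    OutF U z V c ∨ InF U z V c := by
  have haz : a ∈ T z := by rw [C.pal]; exact Or.inl (Or.inl rfl)
  have hbz : b ∈ T z := by rw [C.pal]; exact Or.inl (Or.inr rfl)
  obtain ⟨q', -, hqz, hqV, hqV2, hJ⟩ := exists_generic (y := V) hq (h.arc_of_pair haz hbz hT)
  have hJ' : ∀ᶠ q'' in 𝓝[sphere z 1] q', T q'' = {a, b} := hJ
  have hT' : T q' = {a, b} := hJ'.self_of_nhdsWithin hqz
  refine h.ray_sided hqz hV hqV hqV2 ?_
  rcases C.ray h hmin hqz hT' with h1 | h1
  · exact Or.inl h1.1
  · exact Or.inr h1.1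

end IsoC

end Vale.Agent.P032.Six
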